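import Mathlib
import Vale.Agent.P243.Bundle.Defs

/-!
# P243: averaging cross products over a decomposition of the identity
-/

namespace Vale.Agent.P243.Symmetric

open Vale.Agent.P243.Bundle (E3)
open scoped RealInnerProductSpace

noncomputable section

/-- The cross product. -/
def cr (v w : E3) : E3 :=
  !₂[v 1 * w 2 - v 2 * w 1, v 2 * w 0 - v 0 * w 2, v 0 * w 1 - v 1 * w 0]

/-- The standard basis. -/
def ev (i : Fin 3) : E3 := EuclideanSpace.single i (1 : ℝ)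

/-- The tensor square. -/
def sq2 (x : E3) : Fin 3 → Fin 3 → ℝ := fun i j => x i * x j

/-- The identity tensor. -/
def one2 : Fin 3 → Fin 3 → ℝ := fun i j => if i = j then 1 else 0

lemma cr_apply_zero (v w : E3) : cr v w 0 = v 1 * w 2 - v 2 * w 1 := by simp [cr]
lemma cr_apply_one (v w : E3) : cr v w 1 = v 2 * w 0 - v 0 * w 2 := by simp [cr]
lemma cr_apply_two (v w : E3) : cr v w 2 = v 0 * w 1 - v 1 * w 0 := by simp [cr]

lemma inner_three (v w : E3) : ⟪v, w⟫ = v 0 * w 0 + v 1 * w 1 + v 2 * w 2 := by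
  simp [PiLp.inner_apply, Fin.sum_univ_three, mul_comm]

lemma eq_sum_ev (x : E3) : x = x 0 • ev 0 + x 1 • ev 1 + x 2 • ev 2 := by
  ext i
  fin_cases i <;> simp [ev]

lemma sq_apply (L : E3 →ₗ[ℝ] E3) (x : E3) :
    ‖L x‖ ^ 2 = ∑ i, ∑ j, x i * x j * ⟪L (ev i), L (ev j)⟫ := by
  have h : ∀ i, x i • L (ev i) = L (x i • ev i) := fun i => (L.map_smul _ _).symm
  conv_lhs => rw [← real_inner_self_eq_norm_sq, eq_sum_ev x]
  simp only [map_add, map_smul, Fin.sum_univ_three, inner_add_left, inner_add_right,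
    real_inner_smul_left, real_inner_smul_right]
  ring

/-- A decomposition of the identity evaluates every quadratic form. -/
lemma transfer {ι κ : Type} [Fintype ι] [Fintype κ] {c : ι → ℝ} {v : ι → E3} {q : κ → ℝ}
    {y : κ → E3} (h : ∀ i j, (∑ a, c a * sq2 (v a) i j) + ∑ b, q b * sq2 (y b) i j = one2 i j)
    (L : E3 →ₗ[ℝ] E3) :
    (∑ a, c a * ‖L (v a)‖ ^ 2) + ∑ b, q b * ‖L (y b)‖ ^ 2 = ∑ i, ‖L (ev i)‖ ^ 2 := by
  have hR : ∑ i, ‖L (ev i)‖ ^ 2 = ∑ i, ∑ j, one2 i j * ⟪L (ev i), L (ev j)⟫ := by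
    simp [one2]
  rw [hR]
  simp only [← h, add_mul, Finset.sum_add_distrib, Finset.sum_mul, sq_apply, Finset.mul_sum, sq2]
  congr 1 <;>
  · rw [Finset.sum_comm]
    refine Finset.sum_congr rfl fun i _ => ?_
    rw [Finset.sum_comm]
    refine Finset.sum_congr rfl fun j _ => Finset.sum_congr rfl fun a _ => ?_
    ring

/-- `w ↦ T (v × w)` as a linear map. -/
def crL (T : E3 →L[ℝ] E3) (v : E3) : E3 →ₗ[ℝ] E3 where
  toFun w := T (cr v w)
  map_add' w z := by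
    rw [← map_add]
    congr 1
    ext i; fin_cases i <;> simp [cr] <;> ring
  map_smul' r w := by
    rw [RingHom.id_apply, ← map_smul]
    congr 1
    ext i; fin_cases i <;> simp [cr] <;> ring

lemma crL_apply (T : E3 →L[ℝ] E3) (v w : E3) : crL T v w = T (cr v w) := rfl

lemma crL_swap (T : E3 →L[ℝ] E3) (v w : E3) : ‖crL T v w‖ = ‖crL T w v‖ := by
  have h : cr v w = -cr w v := by
    ext i; fin_cases i <;> simp [cr] <;> ring
  rw [crL_apply, crL_apply, h, map_neg, norm_neg]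

lemma sum_crL_self (T : E3 →L[ℝ] E3) (y : E3) :
    ∑ i, ‖crL T y (ev i)‖ ^ 2 = ‖y‖ ^ 2 * (∑ i, ‖T (ev i)‖ ^ 2) - ‖T y‖ ^ 2 := by
  have hT : ∀ z : E3, T z = z 0 • T (ev 0) + z 1 • T (ev 1) + z 2 • T (ev 2) := fun z => by
    conv_lhs => rw [eq_sum_ev z]
    simp
  simp only [crL_apply, hT (cr y _), hT y, Fin.sum_univ_three, ← real_inner_self_eq_norm_sq,
    inner_add_left, inner_add_right, real_inner_smul_left, real_inner_smul_right,
    cr_apply_zero, cr_apply_one, cr_apply_two, inner_three y y]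
  simp [ev]
  ring

/-- The average squared length of `T (v × w)` over the contact pairs is at least twice the top. -/
lemma exists_pair {ι κ : Type} [Fintype ι] [Fintype κ] {c : ι → ℝ} {v : ι → E3} {q : κ → ℝ}
    {y : κ → E3} (T : E3 →L[ℝ] E3) {N : ℝ} (hc : ∀ a, 0 ≤ c a) (hc2 : ∑ a, c a = 2)
    (hq : ∀ b, 0 ≤ q b) (hq1 : ∑ b, q b = 1) (hy : ∀ b, ‖y b‖ = 1) (hTy : ∀ b, ‖T (y b)‖ = N)
    (h : ∀ i j, (∑ a, c a * sq2 (v a) i j) + ∑ b, q b * sq2 (y b) i j = one2 i j) :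
    ∃ a a', N ^ 2 / 2 ≤ ‖T (cr (v a) (v a'))‖ ^ 2 := by
  set G := ∑ i, ‖T (ev i)‖ ^ 2 with hG
  set W := ∑ a, c a * ∑ a', c a' * ‖crL T (v a) (v a')‖ ^ 2 with hW
  have hfix : ∀ z, ∑ a, c a * ‖crL T z (v a)‖ ^ 2
      = ‖z‖ ^ 2 * G - ‖T z‖ ^ 2 - ∑ b, q b * ‖crL T z (y b)‖ ^ 2 := fun z => by
    have := transfer h (crL T z)
    rw [sum_crL_self] at this
    linarith
  have hEE : ∑ i, ∑ j, ‖crL T (ev i) (ev j)‖ ^ 2 = 2 * G := by
    simp only [sum_crL_self]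
    simp [ev, hG, Fin.sum_univ_three]
    ring
  have hEy : ∀ b, ∑ i, ‖crL T (ev i) (y b)‖ ^ 2 = G - N ^ 2 := fun b => by
    simp only [crL_swap T (ev _) (y b), sum_crL_self, hy, hTy, one_pow, one_mul, hG]
  have hW2 : 2 * N ^ 2 ≤ W := by
    have e1 : W = ∑ a, c a * ∑ i, ‖crL T (v a) (ev i)‖ ^ 2
        - ∑ b, q b * ∑ a, c a * ‖crL T (y b) (v a)‖ ^ 2 := by
      have : ∀ a, ∑ a', c a' * ‖crL T (v a) (v a')‖ ^ 2
          = ∑ i, ‖crL T (v a) (ev i)‖ ^ 2 - ∑ b, q b * ‖crL T (v a) (y b)‖ ^ 2 := fun a => by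
        have := transfer h (crL T (v a))
        linarith
      simp only [hW, this, mul_sub, Finset.sum_sub_distrib, Finset.mul_sum]
      congr 1
      rw [Finset.sum_comm]
      refine Finset.sum_congr rfl fun b _ => Finset.sum_congr rfl fun a _ => ?_
      rw [crL_swap]; ring
    have e2 : ∑ a, c a * ∑ i, ‖crL T (v a) (ev i)‖ ^ 2
        = ∑ i, ∑ a, c a * ‖crL T (ev i) (v a)‖ ^ 2 := by
      simp only [Finset.mul_sum]
      rw [Finset.sum_comm]
      simp only [crL_swap]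
    have e3 : ∑ i, ∑ a, c a * ‖crL T (ev i) (v a)‖ ^ 2
        = 2 * G - ∑ b, q b * (G - N ^ 2) := by
      have : ∀ i, ∑ a, c a * ‖crL T (ev i) (v a)‖ ^ 2
          = ∑ j, ‖crL T (ev i) (ev j)‖ ^ 2 - ∑ b, q b * ‖crL T (ev i) (y b)‖ ^ 2 := fun i => by
        have := transfer h (crL T (ev i))
        linarith
      simp only [this, Finset.sum_sub_distrib, hEE]
      rw [Finset.sum_comm]
      simp only [← Finset.mul_sum, hEy]
    have e4 : ∀ b, ∑ a, c a * ‖crL T (y b) (v a)‖ ^ 2 ≤ G - N ^ 2 := fun b => by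
      rw [hfix, hy, hTy, one_pow, one_mul]
      have : 0 ≤ ∑ b', q b' * ‖crL T (y b) (y b')‖ ^ 2 :=
        Finset.sum_nonneg fun b' _ => mul_nonneg (hq b') (sq_nonneg _)
      linarith
    have e5 : ∑ b, q b * ∑ a, c a * ‖crL T (y b) (v a)‖ ^ 2 ≤ ∑ b, q b * (G - N ^ 2) :=
      Finset.sum_le_sum fun b _ => mul_le_mul_of_nonneg_left (e4 b) (hq b)
    have e6 : ∑ b, q b * (G - N ^ 2) = G - N ^ 2 := by rw [← Finset.sum_mul, hq1, one_mul]
    linarith
  by_contra hcon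
  push Not at hcon
  rcases isEmpty_or_nonempty ι with hι | hι
  · simp at hc2
  obtain ⟨⟨a, a'⟩, hmax⟩ := Finite.exists_max fun p : ι × ι => ‖T (cr (v p.1) (v p.2))‖ ^ 2
  have hle : W ≤ ∑ b, c b * ∑ b', c b' * ‖T (cr (v a) (v a'))‖ ^ 2 :=
    Finset.sum_le_sum fun b _ => mul_le_mul_of_nonneg_left
      (Finset.sum_le_sum fun b' _ => mul_le_mul_of_nonneg_left (hmax (b, b')) (hc b')) (hc b)
  simp only [← Finset.sum_mul, hc2] at hle
  have := hcon a a'
  linarith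

end

end Vale.Agent.P243.Symmetric
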