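import Mathlib

/-!
# P243: the convex hull of a compact set in finite dimension is compact
-/

namespace Vale.Agent.P243.Symmetric

open Module Set

noncomputable section

lemma isCompact_hull {E : Type} [NormedAddCommGroup E] [NormedSpace ℝ E] [FiniteDimensional ℝ E]
    {s : Set E} (hs : IsCompact s) : IsCompact (convexHull ℝ s) := by
  classical
  set F : ∀ m : ℕ, (Fin m → ℝ) × (Fin m → E) → E := fun m p => ∑ i, p.1 i • p.2 i with hF
  have heq : convexHull ℝ s =
      ⋃ m ∈ Finset.range (finrank ℝ E + 2), F m '' (stdSimplex ℝ (Fin m) ×ˢ univ.pi fun _ => s) := by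
    apply Subset.antisymm
    · intro x hx
      obtain ⟨ι, _, z, w, hz, hai, hw, hw1, hwx⟩ := eq_pos_convex_span_of_mem_convexHull hx
      have hcard := hai.card_le_finrank_succ
      let e := Fintype.equivFin ι
      simp only [mem_iUnion, Finset.mem_range, exists_prop]
      refine ⟨Fintype.card ι, ?_, (w ∘ e.symm, z ∘ e.symm),
        ⟨⟨fun i => (hw _).le, ?_⟩, fun i _ => hz ⟨_, rfl⟩⟩, ?_⟩
      · have := Submodule.finrank_le (vectorSpan ℝ (Set.range z))
        omega
      · rw [← hw1]
        exact Equiv.sum_comp e.symm w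
      · rw [← hwx]
        exact Equiv.sum_comp e.symm fun i => w i • z i
    · simp only [iUnion_subset_iff]
      rintro m - x ⟨⟨w, z⟩, ⟨⟨hw0, hw1⟩, hz⟩, rfl⟩
      exact (convex_convexHull ℝ s).sum_mem (fun i _ => hw0 i) hw1
        fun i _ => subset_convexHull ℝ s (hz i (mem_univ i))
  rw [heq]
  refine (Finset.range _).finite_toSet.isCompact_biUnion fun m _ => IsCompact.image ?_ ?_
  · exact (isCompact_stdSimplex ℝ (Fin m)).prod (isCompact_univ_pi fun _ => hs)
  · simp only [hF]
    fun_prop

end

end Vale.Agent.P243.Symmetric
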