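import Vale.Agent.P243.Symmetric.Optimal

/-!
# P243: cylinder coverings of centrally symmetric bodies

An ellipsoid `T (ball)` in the body carries a measure giving `π |det T| / ‖T‖` as a lower bound of
the total base area; two contact slabs of the best ellipsoid give a shadow of area at most
`4 √2 |det T| / ‖T‖`.
-/

namespace Vale.Agent.P243.Symmetric

open MeasureTheory Set Metric Module Real
open Vale.Agent.P243.Bundle (E3 plane projPlane planeArea Bases IsCylinderCover)
open scoped RealInnerProductSpace ENNReal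

noncomputable section

lemma projPlane_eq {u : E3} (hu : ‖u‖ = 1) (x : E3) :
    ((projPlane u x : ↥(plane u)) : E3) = x - ⟪u, x⟫ • u := by
  show ((((ℝ ∙ u)ᗮ).orthogonalProjectionOnto x : ↥((ℝ ∙ u)ᗮ)) : E3) = _
  rw [Submodule.coe_orthogonalProjectionOnto_apply, Submodule.starProjection_orthogonal']
  simp [Submodule.starProjection_singleton, hu]

lemma inner_coe_plane {u : E3} (y : ↥(plane u)) : ⟪u, (y : E3)⟫ = 0 :=
  Submodule.mem_orthogonal_singleton_iff_inner_right.1 y.2

/-- Space as plane times line. -/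
def splitE {u : E3} (hu : ‖u‖ = 1) : E3 ≃ₗᵢ[ℝ] WithLp 2 (↥(plane u) × ℝ) where
  toFun x := WithLp.toLp 2 (projPlane u x, ⟪u, x⟫)
  invFun p := (p.fst : E3) + p.snd • u
  map_add' x y := by simp [projPlane, inner_add_right, ← WithLp.toLp_add]
  map_smul' r x := by simp [projPlane, real_inner_smul_right, ← WithLp.toLp_smul]
  left_inv x := by simp [projPlane_eq hu]
  right_inv p := by
    have h1 : ⟪u, (p.fst : E3) + p.snd • u⟫ = p.snd := by
      rw [inner_add_right, inner_coe_plane, real_inner_smul_right, real_inner_self_eq_norm_sq, hu]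
      ring
    apply WithLp.ofLp_injective 2
    refine Prod.ext (Subtype.ext ?_) h1
    show ((projPlane u _ : ↥(plane u)) : E3) = _
    rw [projPlane_eq hu, h1, add_sub_cancel_right]
    rfl
  norm_map' x := by
    rw [← sq_eq_sq₀ (norm_nonneg _) (norm_nonneg _), WithLp.prod_norm_sq_eq_of_L2]
    show ‖(projPlane u x : E3)‖ ^ 2 + ‖⟪u, x⟫‖ ^ 2 = _
    rw [projPlane_eq hu, norm_sub_sq_real, real_inner_smul_right, norm_smul, hu, real_inner_comm x u,
      Real.norm_eq_abs, mul_one, sq_abs]
    ring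

/-- Fubini along a line direction. -/
lemma lintegral_lines {u : E3} (hu : ‖u‖ = 1) {f : E3 → ℝ≥0∞} (hf : Measurable f) :
    ∫⁻ x, f x = ∫⁻ y : ↥(plane u), ∫⁻ t : ℝ, f ((y : E3) + t • u) := by
  have h := (WithLp.volume_preserving_toLp (U := ↥(plane u)) (V := ℝ))
  rw [← (splitE hu).symm.measurePreserving.lintegral_comp hf,
    ← h.lintegral_comp (f := fun a => f ((splitE hu).symm a))
      (hf.comp (splitE hu).symm.continuous.measurable), Measure.volume_eq_prod,
    lintegral_prod]
  · rfl
  · exact ((hf.comp (splitE hu).symm.continuous.measurable).comp h.measurable).aemeasurable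

/-- The weight whose integral along every line through the unit ball is `π`. -/
def dens (y : E3) : ℝ≥0∞ := if ‖y‖ < 1 then ENNReal.ofReal (1 / √(1 - ‖y‖ ^ 2)) else 0

lemma measurable_dens : Measurable dens :=
  Measurable.ite (measurableSet_lt (by fun_prop) measurable_const) (by fun_prop) measurable_const

lemma lintegral_dens_line (p q : E3) (hq : q ≠ 0) :
    ∫⁻ t : ℝ, dens (p + t • q) ≤ ENNReal.ofReal (π / ‖q‖) ∧
    (⟪p, q⟫ = 0 → ‖p‖ < 1 → ∫⁻ t : ℝ, dens (p + t • q) = ENNReal.ofReal (π / ‖q‖)) := by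
  have hq0 : 0 < ‖q‖ := norm_pos_iff.2 hq
  set b := ⟪p, q⟫ / ‖q‖ ^ 2 with hb
  have hbq : b * ‖q‖ ^ 2 = ⟪p, q⟫ := div_mul_cancel₀ _ (by positivity)
  set R2 := 1 - (‖p‖ ^ 2 - b * ⟪p, q⟫) with hR2
  have hn : ∀ t : ℝ, 1 - ‖p + t • q‖ ^ 2 = R2 - ((t + b) * ‖q‖) ^ 2 := fun t => by
    rw [norm_add_sq_real, real_inner_smul_right, norm_smul, mul_pow, Real.norm_eq_abs, sq_abs, hR2,
      ← hbq]
    ring
  by_cases hR : 0 < R2
  · have hmain : ∫⁻ t : ℝ, dens (p + t • q) = ENNReal.ofReal (π / ‖q‖) := by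
      set R := √R2 with hRdef
      have hR0 : 0 < R := Real.sqrt_pos.2 hR
      have hRsq : R ^ 2 = R2 := Real.sq_sqrt hR.le
      set a := R / ‖q‖ with ha
      have ha0 : 0 < a := div_pos hR0 hq0
      have haq : a * ‖q‖ = R := div_mul_cancel₀ _ hq0.ne'
      set I := Ioo (-(π / 2)) (π / 2) with hI
      set g : ℝ → ℝ := fun θ => a * Real.sin θ - b with hg
      have himg : g '' I = {t | ‖p + t • q‖ < 1} := by
        ext t
        constructor
        · rintro ⟨θ, hθ, rfl⟩
          have hc := Real.cos_pos_of_mem_Ioo hθ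
          have := hn (g θ)
          simp only [hg, sub_add_cancel] at this
          rw [mul_right_comm, haq, ← hRsq] at this
          show ‖_‖ < 1
          nlinarith [Real.sin_sq_add_cos_sq θ, mul_pos (pow_pos hR0 2) (pow_pos hc 2),
            norm_nonneg (p + g θ • q)]
        · intro ht
          have ht' : ‖p + t • q‖ < 1 := ht
          have h := hn t
          have h1 : ((t + b) / a) ^ 2 < 1 := by
            rw [div_pow, div_lt_one (by positivity)]
            rw [← hRsq, ← haq, mul_pow, mul_pow] at h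
            nlinarith [norm_nonneg (p + t • q), pow_pos hq0 2]
          obtain ⟨hlo, hhi⟩ := abs_lt.1 ((sq_lt_one_iff_abs_lt_one _).1 h1)
          refine ⟨Real.arcsin ((t + b) / a),
            ⟨Real.neg_pi_div_two_lt_arcsin.2 hlo, Real.arcsin_lt_pi_div_two.2 hhi⟩, ?_⟩
          simp only [hg, Real.sin_arcsin hlo.le hhi.le]
          field_simp
          ring
      have hind : (fun t : ℝ => dens (p + t • q))
          = (g '' I).indicator fun t => ENNReal.ofReal (1 / √(1 - ‖p + t • q‖ ^ 2)) := by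
        funext t
        by_cases ht : ‖p + t • q‖ < 1 <;> simp [dens, himg, ht, indicator]
      rw [hind, lintegral_indicator (by rw [himg]; exact measurableSet_lt (by fun_prop) measurable_const),
        lintegral_image_eq_lintegral_abs_deriv_mul measurableSet_Ioo
          (f' := fun θ => a * Real.cos θ)
          (fun θ _ => (((Real.hasDerivAt_sin θ).const_mul a).sub_const b).hasDerivWithinAt)
          (fun x hx y hy h => Real.injOn_sin ⟨hx.1.le, hx.2.le⟩ ⟨hy.1.le, hy.2.le⟩
            (mul_left_cancel₀ ha0.ne' (sub_left_injective h)))]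
      rw [setLIntegral_congr_fun measurableSet_Ioo (g := fun _ => ENNReal.ofReal (1 / ‖q‖))
        (fun θ hθ => ?_), setLIntegral_const, Real.volume_Ioo, ← ENNReal.ofReal_mul (by positivity)]
      · congr 1
        ring
      · have hc := Real.cos_pos_of_mem_Ioo hθ
        have h := hn (g θ)
        simp only [hg, sub_add_cancel] at h
        rw [mul_right_comm, haq, ← hRsq,
          show R ^ 2 - (R * Real.sin θ) ^ 2 = (R * Real.cos θ) ^ 2 by
            linear_combination (norm := ring_nf) (-(R ^ 2)) * Real.sin_sq_add_cos_sq θ] at h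
        show ENNReal.ofReal |a * Real.cos θ| * ENNReal.ofReal (1 / √(1 - ‖p + g θ • q‖ ^ 2)) = _
        rw [h, Real.sqrt_sq (by positivity), abs_of_pos (by positivity),
          ← ENNReal.ofReal_mul (by positivity)]
        congr 1
        rw [ha]
        field_simp
    exact ⟨hmain.le, fun _ _ => hmain⟩
  · push Not at hR
    have hz : ∀ t : ℝ, dens (p + t • q) = 0 := fun t => by
      rw [dens, if_neg]
      intro h
      have := hn t
      nlinarith [norm_nonneg (p + t • q), sq_nonneg ((t + b) * ‖q‖)]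
    refine ⟨by simp [hz], fun h0 hp => ?_⟩
    exfalso
    rw [hR2, h0] at hR
    nlinarith [norm_nonneg p]

lemma lintegral_dens : ∫⁻ y, dens y = ENNReal.ofReal (π * π) := by
  have he : ‖ev 0‖ = 1 := by simp [ev]
  have hne : ev 0 ≠ 0 := fun h => by simp [h] at he
  rw [lintegral_lines he measurable_dens]
  have h : (fun y : ↥(plane (ev 0)) => ∫⁻ t : ℝ, dens ((y : E3) + t • ev 0))
      = (ball (0 : ↥(plane (ev 0))) 1).indicator fun _ => ENNReal.ofReal π := by
    funext y
    have hy0 : ⟪(y : E3), ev 0⟫ = 0 := by rw [real_inner_comm]; exact inner_coe_plane y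
    by_cases hy : ‖y‖ < 1
    · rw [indicator_of_mem (mem_ball_zero_iff.2 hy),
        (lintegral_dens_line _ _ hne).2 hy0 hy, he, div_one]
    · rw [indicator_of_notMem (fun h => hy (mem_ball_zero_iff.1 h))]
      refine (lintegral_congr fun t => ?_).trans lintegral_zero
      rw [dens, if_neg]
      intro ht
      apply hy
      have : ‖(y : E3) + t • ev 0‖ ^ 2 = ‖y‖ ^ 2 + ‖t • ev 0‖ ^ 2 := by
        rw [norm_add_sq_real, real_inner_smul_right, hy0]
        simp
      nlinarith [norm_nonneg ((y : E3) + t • ev 0), sq_nonneg ‖t • ev 0‖, norm_nonneg y]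
  have : Fact (finrank ℝ E3 = 2 + 1) := ⟨by simp⟩
  have hfr : finrank ℝ ↥(plane (ev 0)) = 2 := Submodule.finrank_orthogonal_span_singleton hne
  have : Nontrivial ↥(plane (ev 0)) := Module.nontrivial_of_finrank_pos (R := ℝ) (by omega)
  rw [h, lintegral_indicator measurableSet_ball, setLIntegral_const,
    InnerProductSpace.volume_ball_of_dim_even (k := 1) (by omega)]
  simp [ENNReal.ofReal_mul pi_pos.le]

/-- The lower bound given by an inscribed ellipsoid. -/
theorem ellipsoid_bound {K : Set E3} {m : ℕ} {u : Fin m → E3} {B : Bases u}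
    (hC : IsCylinderCover K u B) (T : E3 →L[ℝ] E3) (hdet : LinearMap.det (T : E3 →ₗ[ℝ] E3) ≠ 0)
    (c : E3) (hT : ∀ x : E3, ‖x‖ ≤ 1 → c + T x ∈ K) :
    ENNReal.ofReal (π * |LinearMap.det (T : E3 →ₗ[ℝ] E3)|)
      ≤ ENNReal.ofReal ‖T‖ * ∑ i, planeArea (u i) (B i) := by
  obtain ⟨hu, hB, hcov⟩ := hC
  set Te : E3 ≃L[ℝ] E3 := T.toContinuousLinearEquivOfDetNeZero hdet with hTe
  have hTS : ∀ x, T (Te.symm x) = x := fun x => Te.apply_symm_apply x
  have hST : ∀ x, Te.symm (T x) = x := fun x => Te.symm_apply_apply x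
  set h : E3 → ℝ≥0∞ := fun x => dens (Te.symm (x - c)) with hh
  have hm : Measurable h := measurable_dens.comp (by fun_prop)
  have hTm : Measurable (fun y : E3 => T y) := T.continuous.measurable
  have hmass : ∫⁻ x, h x = ENNReal.ofReal (π * π * |LinearMap.det (T : E3 →ₗ[ℝ] E3)|) := by
    rw [hh, lintegral_sub_right_eq_self (fun x => dens (Te.symm x)) c]
    have hmap := Measure.map_linearMap_addHaar_eq_smul_addHaar (volume : Measure E3) hdet
    have h1 : ∫⁻ x, dens (Te.symm x) ∂(Measure.map (fun y : E3 => T y) volume) = ∫⁻ y, dens y := by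
      rw [lintegral_map (f := fun x => dens (Te.symm x)) (measurable_dens.comp (by fun_prop)) hTm]
      simp [hST]
    have h2 : Measure.map (fun y : E3 => T y) volume
        = ENNReal.ofReal |(LinearMap.det (T : E3 →ₗ[ℝ] E3))⁻¹| • (volume : Measure E3) := hmap
    rw [h2, lintegral_smul_measure, lintegral_dens, smul_eq_mul] at h1
    have hd : 0 < |LinearMap.det (T : E3 →ₗ[ℝ] E3)| := abs_pos.2 hdet
    calc ∫⁻ x, dens (Te.symm x)
        = ENNReal.ofReal |LinearMap.det (T : E3 →ₗ[ℝ] E3)| *
            (ENNReal.ofReal |(LinearMap.det (T : E3 →ₗ[ℝ] E3))⁻¹| * ∫⁻ x, dens (Te.symm x)) := by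
          rw [← mul_assoc, ← ENNReal.ofReal_mul hd.le, abs_inv, mul_inv_cancel₀ hd.ne',
            ENNReal.ofReal_one, one_mul]
      _ = _ := by
          rw [h1, ← ENNReal.ofReal_mul hd.le]
          congr 1
          ring
  set C : Fin m → Set E3 := fun i => {x | projPlane (u i) x ∈ B i} with hCdef
  have hCm : ∀ i, MeasurableSet (C i) := fun i =>
    (show Measurable fun x => projPlane (u i) x from
      ((plane (u i)).orthogonalProjectionOnto).continuous.measurable) (hB i)
  have hsupp : ∀ x, x ∉ ⋃ i, C i → h x = 0 := fun x hx => by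
    rw [hh]
    simp only [dens]
    rw [if_neg]
    intro hlt
    have := hT _ hlt.le
    rw [hTS, add_sub_cancel] at this
    obtain ⟨i, hi⟩ := hcov x this
    exact hx (mem_iUnion.2 ⟨i, hi⟩)
  have hcyl : ∀ i, ∫⁻ x in C i, h x
      ≤ ENNReal.ofReal (π * ‖T‖) * planeArea (u i) (B i) := by
    intro i
    have hui := hu i
    rw [← lintegral_indicator (hCm i), lintegral_lines hui (hm.indicator (hCm i))]
    have hpr : ∀ (y : ↥(plane (u i))) (t : ℝ), projPlane (u i) ((y : E3) + t • u i) = y := by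
      intro y t
      apply Subtype.ext
      rw [projPlane_eq hui, inner_add_right, inner_coe_plane, real_inner_smul_right,
        real_inner_self_eq_norm_sq, hui, one_pow, mul_one, zero_add, add_sub_cancel_right]
    calc ∫⁻ y : ↥(plane (u i)), ∫⁻ t : ℝ, (C i).indicator h ((y : E3) + t • u i)
        ≤ ∫⁻ y : ↥(plane (u i)), (B i).indicator (fun _ => ENNReal.ofReal (π * ‖T‖)) y := by
          refine lintegral_mono fun y => ?_
          by_cases hy : y ∈ B i
          · rw [indicator_of_mem hy]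
            have hq : Te.symm (u i) ≠ 0 := fun h0 => by
              have := hTS (u i)
              rw [h0, map_zero] at this
              rw [← this, norm_zero] at hui
              exact zero_ne_one hui
            calc ∫⁻ t : ℝ, (C i).indicator h ((y : E3) + t • u i)
                ≤ ∫⁻ t : ℝ, dens (Te.symm ((y : E3) - c) + t • Te.symm (u i)) := by
                  refine lintegral_mono fun t => (indicator_le_self _ _ _).trans (le_of_eq ?_)
                  simp only [hh]
                  rw [add_sub_right_comm, map_add, map_smul]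
              _ ≤ ENNReal.ofReal (π / ‖Te.symm (u i)‖) := (lintegral_dens_line _ _ hq).1
              _ ≤ _ := by
                  refine ENNReal.ofReal_le_ofReal ?_
                  rw [div_le_iff₀ (norm_pos_iff.2 hq), mul_assoc]
                  refine le_mul_of_one_le_right pi_pos.le ?_
                  have := T.le_opNorm (Te.symm (u i))
                  rwa [hTS, hui] at this
          · rw [indicator_of_notMem hy]
            refine le_of_eq ((lintegral_congr fun t => ?_).trans lintegral_zero)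
            refine indicator_of_notMem (fun hmem => hy ?_) _
            simpa [hCdef, hpr] using hmem
      _ = _ := by rw [lintegral_indicator (hB i), setLIntegral_const]; rfl
  have hkey : ENNReal.ofReal (π * π * |LinearMap.det (T : E3 →ₗ[ℝ] E3)|)
      ≤ ENNReal.ofReal (π * ‖T‖) * ∑ i, planeArea (u i) (B i) := by
    calc _ = ∫⁻ x, h x := hmass.symm
      _ = ∫⁻ x in ⋃ i, C i, h x := by
          rw [← lintegral_indicator (MeasurableSet.iUnion hCm)]
          exact lintegral_congr fun x => by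
            by_cases hx : x ∈ ⋃ i, C i <;> simp [hx, hsupp]
      _ ≤ ∑' i, ∫⁻ x in C i, h x := lintegral_iUnion_le _ _
      _ ≤ _ := by
          rw [tsum_fintype, Finset.mul_sum]
          exact Finset.sum_le_sum fun i _ => hcyl i
  rw [mul_assoc π, ENNReal.ofReal_mul pi_pos.le (q := π * _), ENNReal.ofReal_mul pi_pos.le (q := ‖T‖),
    mul_assoc] at hkey
  exact (ENNReal.mul_le_mul_iff_right (by simp [pi_pos]) ENNReal.ofReal_ne_top).1 hkey

/-- The shadow bound given by two contact slabs. -/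
theorem slab_bound {K : Set E3} (T : E3 →L[ℝ] E3) (hdet : LinearMap.det (T : E3 →ₗ[ℝ] E3) ≠ 0)
    (c : E3) {v v' : E3} (hv : ∀ x, c + T x ∈ K → |⟪v, x⟫| ≤ 1)
    (hv' : ∀ x, c + T x ∈ K → |⟪v', x⟫| ≤ 1) (hw : T (cr v v') ≠ 0) :
    ∃ z : E3, ‖z‖ = 1 ∧ planeArea z (projPlane z '' K)
      ≤ ENNReal.ofReal (4 * |LinearMap.det (T : E3 →ₗ[ℝ] E3)| / ‖T (cr v v')‖) := by
  set w := cr v v' with hwdef
  set d := LinearMap.det (T : E3 →ₗ[ℝ] E3) with hd
  have hl : 0 < ‖T w‖ := norm_pos_iff.2 hw
  set z := ‖T w‖⁻¹ • T w with hz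
  have hz1 : ‖z‖ = 1 := by simp [hz, norm_smul, hl.ne']
  set Te : E3 ≃L[ℝ] E3 := T.toContinuousLinearEquivOfDetNeZero hdet with hTe
  have hTS : ∀ x, T (Te.symm x) = x := fun x => Te.apply_symm_apply x
  have hSz : Te.symm z = ‖T w‖⁻¹ • w := by
    rw [hz, map_smul]
    congr 1
    exact Te.symm_apply_apply w
  have hvw : ⟪v, w⟫ = 0 := by
    rw [inner_three, hwdef, cr_apply_zero, cr_apply_one, cr_apply_two]; ring
  have hv'w : ⟪v', w⟫ = 0 := by
    rw [inner_three, hwdef, cr_apply_zero, cr_apply_one, cr_apply_two]; ring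
  refine ⟨z, hz1, ?_⟩
  set P : Set ↥(plane z) :=
    {y | |⟪v, Te.symm ((y : E3) - c)⟫| ≤ 1 ∧ |⟪v', Te.symm ((y : E3) - c)⟫| ≤ 1} with hP
  have hslide : ∀ (x : E3) (t : ℝ), ⟪v, Te.symm (x + t • z - c)⟫ = ⟪v, Te.symm (x - c)⟫ ∧
      ⟪v', Te.symm (x + t • z - c)⟫ = ⟪v', Te.symm (x - c)⟫ := fun x t => by
    constructor <;>
      simp [add_sub_right_comm, map_add, map_smul, inner_add_right, real_inner_smul_right, hSz,
        hvw, hv'w]
  have hsub : projPlane z '' K ⊆ P := by
    rintro - ⟨x, hx, rfl⟩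
    have h : ((projPlane z x : ↥(plane z)) : E3) = x + (-⟪z, x⟫) • z := by
      rw [projPlane_eq hz1, sub_eq_add_neg, neg_smul]
    have hx' : c + T (Te.symm (x - c)) ∈ K := by rwa [hTS, add_sub_cancel]
    simp only [hP, mem_ofPred_eq, h, (hslide x _).1, (hslide x _).2]
    exact ⟨hv _ hx', hv' _ hx'⟩
  -- the slab box
  set G : E3 →ₗ[ℝ] E3 :=
    { toFun := fun x => !₂[⟪v, Te.symm x⟫, ⟪v', Te.symm x⟫, ⟪z, x⟫]
      map_add' := fun x y => by
        ext i; fin_cases i <;> simp [inner_add_right]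
      map_smul' := fun r x => by
        ext i; fin_cases i <;> simp [real_inner_smul_right] } with hG
  have hGT : LinearMap.det (G ∘ₗ (T : E3 →ₗ[ℝ] E3)) = ‖T w‖ := by
    have hST : ∀ x, Te.symm (T x) = x := fun x => Te.symm_apply_apply x
    rw [← LinearMap.det_toMatrix (EuclideanSpace.basisFun (Fin 3) ℝ).toBasis, Matrix.det_fin_three]
    simp [LinearMap.toMatrix_apply, hG, hST]
    have hTw : T w = w 0 • T (ev 0) + w 1 • T (ev 1) + w 2 • T (ev 2) := by
      conv_lhs => rw [eq_sum_ev w]
      simp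
    have hzw : ⟪z, T w⟫ = ‖T w‖ := by
      rw [hz, real_inner_smul_left, real_inner_self_eq_norm_sq]
      field_simp
    have hzw' : ⟪z, T w⟫ = w 0 * ⟪z, T (ev 0)⟫ + w 1 * ⟪z, T (ev 1)⟫ + w 2 * ⟪z, T (ev 2)⟫ := by
      rw [hTw]
      simp [inner_add_right, real_inner_smul_right]
    rw [hzw] at hzw'
    simp only [hwdef, cr_apply_zero, cr_apply_one, cr_apply_two, ev] at hzw' ⊢
    simp [inner_three v, inner_three v'] at hzw' ⊢
    linarith
  have hGdet : LinearMap.det G = ‖T w‖ / d := by
    rw [LinearMap.det_comp] at hGT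
    rw [eq_div_iff hdet]
    exact hGT
  set Q : Set E3 := {y | ∀ i, |y i| ≤ 1} with hQ
  have hQv : volume Q = 8 := by
    have h : Q = (fun y : E3 => WithLp.ofLp y) ⁻¹' (univ.pi fun _ => Icc (-1 : ℝ) 1) := by
      ext y; simp [hQ, abs_le, Pi.le_def, forall_and]
    rw [h, (PiLp.volume_preserving_ofLp (Fin 3)).measure_preimage
      (MeasurableSet.univ_pi fun _ => measurableSet_Icc).nullMeasurableSet, volume_pi_pi]
    norm_num
  set X : Set E3 := (fun x => x - c) ⁻¹' (G ⁻¹' Q) with hX
  have hXv : volume X = ENNReal.ofReal (8 * |d| / ‖T w‖) := by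
    have hne : LinearMap.det G ≠ 0 := by rw [hGdet]; exact div_ne_zero hl.ne' hdet
    simp only [hX, sub_eq_add_neg]
    rw [measure_preimage_add_right, Measure.addHaar_preimage_linearMap _ hne, hQv, hGdet,
      ← ENNReal.ofReal_ofNat 8, ← ENNReal.ofReal_mul (abs_nonneg _)]
    congr 1
    rw [abs_inv, abs_div, abs_norm, inv_div]
    ring
  have hXm : MeasurableSet X := by
    have hQc : IsClosed Q := by
      simp only [hQ, ofPred_forall]
      exact isClosed_iInter fun i => isClosed_le (by fun_prop) continuous_const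
    exact (hQc.preimage G.continuous_of_finiteDimensional).preimage
      (continuous_id.sub continuous_const) |>.measurableSet
  have hPm : MeasurableSet P := by
    have c1 : Continuous fun y : ↥(plane z) => |⟪v, Te.symm ((y : E3) - c)⟫| := by fun_prop
    have c2 : Continuous fun y : ↥(plane z) => |⟪v', Te.symm ((y : E3) - c)⟫| := by fun_prop
    have : IsClosed P := by
      simp only [hP, ofPred_and]
      exact (isClosed_le c1 continuous_const).inter (isClosed_le c2 continuous_const)
    exact this.measurableSet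
  have hXP : volume X = volume P * 2 := by
    rw [← lintegral_indicator_one hXm, lintegral_lines hz1 (f := X.indicator (1 : E3 → ℝ≥0∞)) (measurable_one.indicator hXm)]
    have h : (fun y : ↥(plane z) => ∫⁻ t : ℝ, X.indicator (1 : E3 → ℝ≥0∞) ((y : E3) + t • z))
        = P.indicator fun _ => 2 := by
      funext y
      have hiff : ∀ t : ℝ, ((y : E3) + t • z ∈ X ↔ y ∈ P ∧ t ∈ Icc (⟪z, c⟫ - 1) (⟪z, c⟫ + 1)) := by
        intro t
        have h2 : ⟪z, (y : E3) + t • z - c⟫ = t - ⟪z, c⟫ := by
          rw [inner_sub_right, inner_add_right, inner_coe_plane, real_inner_smul_right,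
            real_inner_self_eq_norm_sq, hz1]
          ring
        have hXeq : ∀ x, x ∈ X ↔ |⟪v, Te.symm (x - c)⟫| ≤ 1 ∧ |⟪v', Te.symm (x - c)⟫| ≤ 1 ∧
            |⟪z, x - c⟫| ≤ 1 := fun x => by
          simp [hX, hG, hQ, Fin.forall_fin_succ]
        rw [hXeq, (hslide (y : E3) t).1, (hslide (y : E3) t).2, h2, abs_le (a := t - ⟪z, c⟫)]
        simp only [hP, mem_ofPred_eq, mem_Icc]
        constructor
        · rintro ⟨h3, h4, h5, h6⟩
          exact ⟨⟨h3, h4⟩, by linarith, by linarith⟩
        · rintro ⟨⟨h3, h4⟩, h5, h6⟩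
          exact ⟨h3, h4, by linarith, by linarith⟩
      by_cases hy : y ∈ P
      · rw [indicator_of_mem hy]
        have : (fun t : ℝ => X.indicator (1 : E3 → ℝ≥0∞) ((y : E3) + t • z))
            = (Icc (⟪z, c⟫ - 1) (⟪z, c⟫ + 1)).indicator 1 := by
          funext t
          by_cases ht : t ∈ Icc (⟪z, c⟫ - 1) (⟪z, c⟫ + 1)
          · rw [indicator_of_mem ((hiff t).2 ⟨hy, ht⟩), indicator_of_mem ht]; rfl
          · rw [indicator_of_notMem (fun h => ht ((hiff t).1 h).2), indicator_of_notMem ht]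
        rw [this, lintegral_indicator_one measurableSet_Icc, Real.volume_Icc]
        norm_num
      · rw [indicator_of_notMem hy]
        refine (lintegral_congr fun t => ?_).trans lintegral_zero
        exact indicator_of_notMem (fun h => hy ((hiff t).1 h).1) _
    rw [h, lintegral_indicator hPm, setLIntegral_const, mul_comm]
  refine (measure_mono hsub).trans ?_
  rw [hXP, show 8 * |d| / ‖T w‖ = 4 * |d| / ‖T w‖ * 2 by ring, ENNReal.ofReal_mul (by positivity),
    ENNReal.ofReal_ofNat] at hXv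
  exact ((ENNReal.mul_left_inj two_ne_zero ENNReal.ofNat_ne_top).1 hXv).le

/-- The bound for bodies symmetric about a point. -/
theorem symmetric_bound {K : Set E3} (hK : IsCompact K) (hcv : Convex ℝ K)
    (hint : (interior K).Nonempty) {c : E3} (hsym : ∀ x ∈ K, (2 : ℝ) • c - x ∈ K)
    {m : ℕ} {u : Fin m → E3} {B : Bases u} (hC : IsCylinderCover K u B) :
    ∃ z : E3, ‖z‖ = 1 ∧
      ENNReal.ofReal (π / (4 * √2)) * planeArea z (projPlane z '' K)
        ≤ ∑ i, planeArea (u i) (B i) := by
  set K₀ : Set E3 := (fun x => c + x) ⁻¹' K with hK₀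
  have hK₀c : IsCompact K₀ := (Homeomorph.addLeft c).isCompact_preimage.2 hK
  have hK₀v : Convex ℝ K₀ := hcv.translate_preimage_right c
  have hneg : ∀ x ∈ K₀, -x ∈ K₀ := fun x hx => by
    have h := hsym _ hx
    show c + -x ∈ K
    convert h using 1
    simp only
    module
  obtain ⟨x₀, hx₀⟩ := hint
  obtain ⟨r, hr, hball⟩ := Metric.isOpen_iff.1 isOpen_interior x₀ hx₀
  have hrK : closedBall (0 : E3) (r / 2) ⊆ K₀ := by
    intro x hx
    rw [mem_closedBall_zero_iff] at hx
    have h1 : x₀ - c + x ∈ K₀ := by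
      show c + (x₀ - c + x) ∈ K
      refine interior_subset (hball ?_)
      rw [mem_ball, dist_eq_norm, show c + (x₀ - c + x) - x₀ = x by abel]
      linarith
    have h2 : x₀ - c - x ∈ K₀ := by
      show c + (x₀ - c - x) ∈ K
      refine interior_subset (hball ?_)
      rw [mem_ball, dist_eq_norm, show c + (x₀ - c - x) - x₀ = -x by abel, norm_neg]
      linarith
    have := hK₀v h1 (hneg _ h2) (show (0 : ℝ) ≤ 1 / 2 by norm_num) (show (0 : ℝ) ≤ 1 / 2 by norm_num)
      (by norm_num)
    convert this using 1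
    module
  obtain ⟨T, hT, hdet, ι, κ, _, _, w, v, q, y, hw0, hw2, hvK, hq0, hq1, hy1, hTy, hdec⟩ :=
    exists_optimal hK₀c hK₀v (half_pos hr) hrK
  obtain ⟨a, a', haa⟩ := exists_pair T hw0 hw2 hq0 hq1 hy1 hTy hdec
  have habs : ∀ a x, c + T x ∈ K → |⟪v a, x⟫| ≤ 1 := fun a x hx => by
    refine abs_le'.2 ⟨hvK a x hx, ?_⟩
    have := hvK a (-x) (by rw [map_neg]; exact hneg _ hx)
    rwa [inner_neg_right] at this
  set d := LinearMap.det (T : E3 →ₗ[ℝ] E3) with hd
  have hT0 : 0 < ‖T‖ := by
    rcases eq_or_lt_of_le (norm_nonneg T) with h | h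
    · have := abs_det_le T
      rw [← h] at this
      exact absurd (le_antisymm (by simpa using this) (abs_nonneg _)) (abs_ne_zero.2 hdet)
    · exact h
  have hl : 0 < ‖T (cr (v a) (v a'))‖ := by
    nlinarith [pow_pos hT0 2, norm_nonneg (T (cr (v a) (v a')))]
  obtain ⟨z, hz, hup⟩ := slab_bound T hdet c (habs a) (habs a') (norm_pos_iff.1 hl)
  have hlow := ellipsoid_bound hC T hdet c hT
  refine ⟨z, hz, ?_⟩
  have hratio : π / (4 * √2) * (4 * |d| / ‖T (cr (v a) (v a'))‖) * ‖T‖ ≤ π * |d| := by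
    have h2 : (√2 : ℝ) ^ 2 = 2 := Real.sq_sqrt zero_le_two
    have hs : 0 < √2 := by positivity
    have hle : ‖T‖ ≤ √2 * ‖T (cr (v a) (v a'))‖ := by
      refine (sq_le_sq₀ hT0.le (by positivity)).1 ?_
      rw [mul_pow, h2]
      linarith
    rw [show π / (4 * √2) * (4 * |d| / ‖T (cr (v a) (v a'))‖) * ‖T‖
        = π * |d| * (‖T‖ / (√2 * ‖T (cr (v a) (v a'))‖)) by field_simp]
    exact mul_le_of_le_one_right (by positivity) ((div_le_one (by positivity)).2 hle)
  have hT' : ENNReal.ofReal ‖T‖ ≠ 0 := (ENNReal.ofReal_pos.2 hT0).ne'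
  refine (ENNReal.mul_le_mul_iff_right hT' ENNReal.ofReal_ne_top).1 ?_
  calc ENNReal.ofReal ‖T‖ * (ENNReal.ofReal (π / (4 * √2)) * planeArea z (projPlane z '' K))
      ≤ ENNReal.ofReal ‖T‖ * (ENNReal.ofReal (π / (4 * √2)) *
          ENNReal.ofReal (4 * |d| / ‖T (cr (v a) (v a'))‖)) := by gcongr
    _ = ENNReal.ofReal (π / (4 * √2) * (4 * |d| / ‖T (cr (v a) (v a'))‖) * ‖T‖) := by
        rw [ENNReal.ofReal_mul (by positivity), ENNReal.ofReal_mul (by positivity)]
        ring
    _ ≤ ENNReal.ofReal (π * |d|) := ENNReal.ofReal_le_ofReal hratio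
    _ ≤ _ := hlow

end

end Vale.Agent.P243.Symmetric
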