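import Vale.Agent.P243.Symmetric.Algebra
import Vale.Agent.P243.Symmetric.Hull

/-!
# P243: the inscribed ellipsoid with the largest least shadow, and its contact decomposition
-/

namespace Vale.Agent.P243.Symmetric

open MeasureTheory Set Metric Filter Topology Module
open Vale.Agent.P243.Bundle (E3)
open scoped RealInnerProductSpace Pointwise

noncomputable section

/-- The linear maps sending the unit ball into `K`. -/
def Adm (K : Set E3) : Set (E3 →L[ℝ] E3) := {T | ∀ x : E3, ‖x‖ ≤ 1 → T x ∈ K}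

/-- Up to a factor `π`, the least shadow of the image of the unit ball. -/
def score (T : E3 →L[ℝ] E3) : ℝ := |LinearMap.det (T : E3 →ₗ[ℝ] E3)| / ‖T‖

lemma continuous_det3 : Continuous fun T : E3 →L[ℝ] E3 => LinearMap.det (T : E3 →ₗ[ℝ] E3) :=
  ContinuousLinearMap.continuous_det

lemma abs_det_le (T : E3 →L[ℝ] E3) : |LinearMap.det (T : E3 →ₗ[ℝ] E3)| ≤ ‖T‖ ^ 3 := by
  have h : (T : E3 →ₗ[ℝ] E3) '' closedBall 0 1 ⊆ closedBall 0 ‖T‖ := by
    rintro - ⟨x, hx, rfl⟩
    rw [mem_closedBall_zero_iff] at hx ⊢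
    exact T.le_opNorm_of_le hx |>.trans (by simp)
  have h2 := measure_mono (μ := (volume : Measure E3)) h
  rw [Measure.addHaar_image_linearMap, Measure.addHaar_closedBall' _ _ (norm_nonneg T),
    finrank_euclideanSpace_fin] at h2
  have h0 : volume (closedBall (0 : E3) 1) ≠ 0 := (measure_closedBall_pos volume 0 one_pos).ne'
  have ht : volume (closedBall (0 : E3) 1) ≠ ⊤ := measure_closedBall_lt_top.ne
  rw [ENNReal.mul_le_mul_iff_left h0 ht, ENNReal.ofReal_le_ofReal_iff (by positivity)] at h2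
  exact h2

lemma exists_max_score {K : Set E3} (hK : IsCompact K) {r : ℝ} (hr : 0 < r)
    (hrK : closedBall 0 r ⊆ K) :
    ∃ T ∈ Adm K, 0 < score T ∧ ∀ S ∈ Adm K, score S ≤ score T := by
  obtain ⟨R, hR⟩ := hK.isBounded.exists_norm_le
  have hR0 : 0 ≤ R := (norm_nonneg 0).trans (hR 0 (hrK (mem_closedBall_self hr.le)))
  set T₀ : E3 →L[ℝ] E3 := r • ContinuousLinearMap.id ℝ E3 with hT₀
  have hT₀A : T₀ ∈ Adm K := fun x hx => hrK (by
    simp [hT₀, norm_smul, abs_of_pos hr]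
    nlinarith)
  have hT₀d : LinearMap.det (T₀ : E3 →ₗ[ℝ] E3) = r ^ 3 := by
    simp [hT₀]
  have hT₀n : ‖T₀‖ = r := by
    simp [hT₀, norm_smul, abs_of_pos hr]
  have hT₀s : score T₀ = r ^ 2 := by
    rw [score, hT₀d, hT₀n, abs_of_pos (by positivity)]
    field_simp
  have hclosed : IsClosed (Adm K) := by
    have : Adm K = ⋂ x : E3, ⋂ _ : ‖x‖ ≤ 1, (fun T : E3 →L[ℝ] E3 => T x) ⁻¹' K := by
      ext T; simp [Adm]
    rw [this]
    exact isClosed_iInter fun x => isClosed_iInter fun _ =>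
      hK.isClosed.preimage (by fun_prop)
  have hnorm : ∀ T ∈ Adm K, ‖T‖ ≤ R := fun T hT =>
    T.opNorm_le_bound hR0 fun x => by
      rcases eq_or_ne x 0 with rfl | hx
      · simp
      have hx' : 0 < ‖x‖ := norm_pos_iff.2 hx
      have h := hR _ (hT (‖x‖⁻¹ • x) (by simp [norm_smul, hx'.ne']))
      rw [map_smul, norm_smul, norm_inv, norm_norm, inv_mul_le_iff₀ hx'] at h
      linarith
  set A : Set (E3 →L[ℝ] E3) := Adm K ∩ {T | r ≤ ‖T‖} with hA
  have hAc : IsCompact A := by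
    refine (isCompact_closedBall (0 : E3 →L[ℝ] E3) R).of_isClosed_subset
      (hclosed.inter (isClosed_le continuous_const continuous_norm)) fun T hT => ?_
    rw [mem_closedBall_zero_iff]
    exact hnorm T hT.1
  have hcont : ContinuousOn score A :=
    ContinuousOn.div continuous_det3.abs.continuousOn continuous_norm.continuousOn fun T hT =>
      (hr.trans_le hT.2).ne'
  obtain ⟨T, hT, hmax⟩ := hAc.exists_isMaxOn ⟨T₀, hT₀A, hT₀n.ge⟩ hcont
  have hT0 : r ^ 2 ≤ score T := hT₀s ▸ hmax ⟨hT₀A, hT₀n.ge⟩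
  refine ⟨T, hT.1, lt_of_lt_of_le (by positivity) hT0, fun S hS => ?_⟩
  by_cases h : r ≤ ‖S‖
  · exact hmax ⟨hS, h⟩
  push Not at h
  rcases eq_or_lt_of_le (norm_nonneg S) with h0 | h0
  · rw [score, ← h0, div_zero]
    linarith [sq_nonneg r]
  · rw [score, div_le_iff₀ h0]
    calc |LinearMap.det (S : E3 →ₗ[ℝ] E3)| ≤ ‖S‖ ^ 3 := abs_det_le S
      _ = ‖S‖ ^ 2 * ‖S‖ := by ring
      _ ≤ score T * ‖S‖ := by
          refine mul_le_mul_of_nonneg_right (le_trans ?_ hT0) h0.le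
          exact pow_le_pow_left₀ h0.le h.le 2

/-- Expansion of the determinant near the identity. -/
lemma det_expand (D : E3 →L[ℝ] E3) : ∃ b c : ℝ, ∀ ε : ℝ,
    LinearMap.det ((ContinuousLinearMap.id ℝ E3 + ε • D : E3 →L[ℝ] E3) : E3 →ₗ[ℝ] E3)
      = 1 + ε * (∑ i, D (ev i) i) + ε ^ 2 * b + ε ^ 3 * c := by
  set d : Fin 3 → Fin 3 → ℝ := fun i j => D (ev j) i with hd
  refine ⟨d 0 0 * d 1 1 + d 0 0 * d 2 2 + d 1 1 * d 2 2 - d 0 1 * d 1 0 - d 0 2 * d 2 0
      - d 1 2 * d 2 1,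
    d 0 0 * d 1 1 * d 2 2 - d 0 0 * d 1 2 * d 2 1 - d 0 1 * d 1 0 * d 2 2
      + d 0 1 * d 1 2 * d 2 0 + d 0 2 * d 1 0 * d 2 1 - d 0 2 * d 1 1 * d 2 0, fun ε => ?_⟩
  rw [← LinearMap.det_toMatrix (EuclideanSpace.basisFun (Fin 3) ℝ).toBasis, Matrix.det_fin_three]
  simp [LinearMap.toMatrix_apply, Fin.sum_univ_three, hd, ev]
  ring

/-- A maximal linear map has norm attainers and contacts satisfying `yDy ≥ tr D` or `vDv ≥ 0`. -/
lemma no_improvement {K : Set E3} (hK : IsCompact K) (hcv : Convex ℝ K) {T : E3 →L[ℝ] E3}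
    (hT : T ∈ Adm K) (hpos : 0 < score T) (hmax : ∀ S ∈ Adm K, score S ≤ score T)
    (D : E3 →L[ℝ] E3)
    (hv : ∀ v : E3, ‖v‖ = 1 → (∀ x, T x ∈ K → ⟪v, x⟫ ≤ 1) → ⟪v, D v⟫ < 0)
    (hy : ∀ y : E3, ‖y‖ = 1 → ‖T y‖ = ‖T‖ → ⟪y, D y⟫ < ∑ i, D (ev i) i) : False := by
  set N := ‖T‖ with hN
  have hdet : LinearMap.det (T : E3 →ₗ[ℝ] E3) ≠ 0 := fun h => by
    simp [score, h] at hpos
  have hN0 : 0 < N := by
    rcases eq_or_lt_of_le (norm_nonneg T) with h | h
    · simp [score, ← h] at hpos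
    · exact h
  set ε : ℕ → ℝ := fun n => 1 / ((n : ℝ) + 1) with hε
  have hε0 : ∀ n, 0 < ε n := fun n => by simp only [hε]; positivity
  have hεt : Tendsto ε atTop (𝓝 0) := tendsto_one_div_add_atTop_nhds_zero_nat
  set P : ℕ → E3 →L[ℝ] E3 := fun n => ContinuousLinearMap.id ℝ E3 + ε n • D with hP
  have hPx : ∀ n x, P n x = x + ε n • D x := fun n x => by simp [hP]
  -- eventually admissible
  have hadm : ∀ᶠ n in atTop, T.comp (P n) ∈ Adm K := by
    by_contra hcon
    obtain ⟨φ, hφ, hbad⟩ := extraction_of_frequently_atTop (not_eventually.1 hcon)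
    simp only [Adm, mem_ofPred_eq, not_forall] at hbad
    choose x hx hxK using hbad
    have hK' : IsClosed ((fun z : E3 => T z) ⁻¹' K) := hK.isClosed.preimage T.continuous
    have hK'c : Convex ℝ ((fun z : E3 => T z) ⁻¹' K) := hcv.linear_preimage (T : E3 →ₗ[ℝ] E3)
    have hsep : ∀ n, ∃ v : E3, ‖v‖ = 1 ∧ 1 < ⟪v, P (φ n) (x n)⟫ ∧
        ∀ z, T z ∈ K → ⟪v, z⟫ ≤ ⟪v, P (φ n) (x n)⟫ := by
      intro n
      obtain ⟨f, u, hfu, hfK⟩ := geometric_hahn_banach_point_closed hK'c hK'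
        (x := P (φ n) (x n)) (hxK n)
      set m : E3 := -(InnerProductSpace.toDual ℝ E3).symm f with hm
      have hfm : ∀ z, ⟪m, z⟫ = -f z := fun z => by
        simp [hm, InnerProductSpace.toDual_symm_apply]
      have h0 : (0 : E3) ∈ (fun z : E3 => T z) ⁻¹' K := hT 0 (by simp)
      have hu0 := hfK 0 h0
      rw [map_zero] at hu0
      have hm0 : m ≠ 0 := fun h => by
        have := hfm (P (φ n) (x n))
        rw [h, inner_zero_left] at this
        linarith
      have hm' : 0 < ‖m‖ := norm_pos_iff.2 hm0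
      refine ⟨‖m‖⁻¹ • m, by simp [norm_smul, hm'.ne'], ?_, fun z hz => ?_⟩
      · have h1 : T (‖m‖⁻¹ • m) ∈ K := hT _ (by simp [norm_smul, hm'.ne'])
        have h2 := hfK _ h1
        have h3 := hfm (‖m‖⁻¹ • m)
        rw [real_inner_smul_right, real_inner_self_eq_norm_sq] at h3
        have h4 : ‖m‖⁻¹ * ‖m‖ ^ 2 = ‖m‖ := by field_simp
        rw [h4] at h3
        rw [real_inner_smul_left, lt_inv_mul_iff₀ hm', mul_one, hfm]
        linarith
      · rw [real_inner_smul_left, real_inner_smul_left, hfm, hfm]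
        have := hfK z hz
        exact mul_le_mul_of_nonneg_left (by linarith) (inv_nonneg.2 hm'.le)
    choose v hv1 hvbig hvK using hsep
    obtain ⟨⟨x', v'⟩, hmem, ψ, hψ, hlim⟩ :=
      ((isCompact_closedBall (0 : E3) 1).prod (isCompact_sphere (0 : E3) 1)).tendsto_subseq
        (x := fun n => (x n, v n))
        (fun n => ⟨mem_closedBall_zero_iff.2 (hx n), mem_sphere_zero_iff_norm.2 (hv1 n)⟩)
    obtain ⟨hx', hv'⟩ := hmem
    rw [mem_closedBall_zero_iff] at hx'
    rw [mem_sphere_zero_iff_norm] at hv'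
    have hlx : Tendsto (fun n => x (ψ n)) atTop (𝓝 x') :=
      ((continuous_fst.tendsto _).comp hlim)
    have hlv : Tendsto (fun n => v (ψ n)) atTop (𝓝 v') :=
      ((continuous_snd.tendsto _).comp hlim)
    have hle : Tendsto (fun n => ε (φ (ψ n))) atTop (𝓝 0) :=
      hεt.comp ((hφ.comp hψ).tendsto_atTop)
    have hlp : Tendsto (fun n => ⟪v (ψ n), P (φ (ψ n)) (x (ψ n))⟫) atTop (𝓝 ⟪v', x'⟫) := by
      simp only [hPx]
      have := hlv.inner (hlx.add (hle.smul ((D.continuous.tendsto _).comp hlx))) (𝕜 := ℝ)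
      simpa using this
    have h1 : (1 : ℝ) ≤ ⟪v', x'⟫ := ge_of_tendsto' hlp fun n => (hvbig _).le
    have hxv : x' = v' := by
      have hle1 : ⟪v', x'⟫ ≤ 1 := (real_inner_le_norm _ _).trans (by
        rw [hv', one_mul]; exact hx')
      have h : ‖x' - v'‖ ^ 2 ≤ 0 := by
        rw [norm_sub_sq_real, hv', real_inner_comm]
        nlinarith [norm_nonneg x']
      simpa [sub_eq_zero] using le_antisymm h (sq_nonneg _)
    have hvN : ∀ z, T z ∈ K → ⟪v', z⟫ ≤ 1 := fun z hz => by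
      have h := le_of_tendsto_of_tendsto' (hlv.inner tendsto_const_nhds) hlp fun n => hvK _ z hz
      rw [hxv, real_inner_self_eq_norm_sq, hv', one_pow] at h
      exact h
    have hlD : Tendsto (fun n => ⟪v (ψ n), D (x (ψ n))⟫) atTop (𝓝 ⟪v', D x'⟫) :=
      hlv.inner ((D.continuous.tendsto _).comp hlx)
    have h0 : 0 ≤ ⟪v', D x'⟫ := ge_of_tendsto' hlD fun n => by
      have h := hvbig (ψ n)
      rw [hPx, inner_add_right, real_inner_smul_right] at h
      have hb : ⟪v (ψ n), x (ψ n)⟫ ≤ 1 := (real_inner_le_norm _ _).trans (by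
        rw [hv1, one_mul]; exact hx _)
      by_contra hneg
      push Not at hneg
      nlinarith [hε0 (φ (ψ n))]
    rw [hxv] at h0
    exact absurd h0 (not_le.2 (hv v' hv' hvN))
  -- the score cannot increase
  obtain ⟨b, c, hexp⟩ := det_expand D
  set tr := ∑ i, D (ev i) i with htr
  have hattain : ∀ n, ∃ y : E3, ‖y‖ = 1 ∧ ‖T (P n y)‖ = ‖T.comp (P n)‖ := fun n => by
    have hne : (sphere (0 : E3) 1).Nonempty := NormedSpace.sphere_nonempty.2 zero_le_one
    obtain ⟨y, hy1, hy2⟩ := (isCompact_sphere (0 : E3) 1).exists_isMaxOn hne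
      (f := fun y => ‖T.comp (P n) y‖) (by fun_prop)
    rw [mem_sphere_zero_iff_norm] at hy1
    refine ⟨y, hy1, le_antisymm ?_ ?_⟩
    · simpa [hy1] using (T.comp (P n)).le_opNorm y
    · refine (T.comp (P n)).opNorm_le_bound (norm_nonneg _) fun z => ?_
      rcases eq_or_ne z 0 with rfl | hz
      · simp
      have hz' : 0 < ‖z‖ := norm_pos_iff.2 hz
      have h := hy2 (show ‖z‖⁻¹ • z ∈ sphere (0 : E3) 1 by simp [norm_smul, hz'.ne'])
      simp only [mem_ofPred_eq, map_smul, norm_smul, norm_inv, norm_norm] at h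
      rw [inv_mul_le_iff₀ hz'] at h
      exact h.trans (le_of_eq (mul_comm _ _))
  choose y hy1 hy2 using hattain
  obtain ⟨y', hy', ψ, hψ, hlim⟩ := (isCompact_sphere (0 : E3) 1).tendsto_subseq (x := y)
    (fun n => mem_sphere_zero_iff_norm.2 (hy1 n))
  rw [mem_sphere_zero_iff_norm] at hy'
  have hle : Tendsto (fun n => ε (ψ n)) atTop (𝓝 0) := hεt.comp hψ.tendsto_atTop
  set δ : ℕ → ℝ := fun n => ε n * tr + ε n ^ 2 * b + ε n ^ 3 * c with hδ
  have hδt : Tendsto (fun n => δ (ψ n)) atTop (𝓝 0) := by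
    have := ((hle.mul_const tr).add ((hle.pow 2).mul_const b)).add ((hle.pow 3).mul_const c)
    simpa [hδ] using this
  have hkey : ∀ᶠ n in atTop, (1 + δ (ψ n)) * N ≤ ‖T (P (ψ n) (y (ψ n)))‖ := by
    filter_upwards [hψ.tendsto_atTop.eventually hadm] with n hn
    have h := hmax _ hn
    set M := T.comp (P (ψ n)) with hM
    have hd : LinearMap.det (M : E3 →ₗ[ℝ] E3)
        = LinearMap.det (T : E3 →ₗ[ℝ] E3) * (1 + δ (ψ n)) := by
      rw [hM, ContinuousLinearMap.toLinearMap_comp, LinearMap.det_comp, hexp, hδ]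
      ring
    rw [hy2]
    rcases eq_or_lt_of_le (norm_nonneg M) with h0 | h0
    · have : LinearMap.det (M : E3 →ₗ[ℝ] E3) = 0 := by
        have := abs_det_le M
        rw [← h0] at this
        simpa using le_antisymm this (by simp)
      rw [hd] at this
      rcases mul_eq_zero.1 this with h' | h'
      · exact absurd h' hdet
      · rw [h', zero_mul]; exact h0.le
    · rw [score, score, hd, abs_mul, div_le_div_iff₀ h0 hN0, mul_assoc] at h
      exact (mul_le_mul_of_nonneg_right (le_abs_self _) hN0.le).trans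
        (le_of_mul_le_mul_left h (abs_pos.2 hdet))
  have hly : Tendsto (fun n => y (ψ n)) atTop (𝓝 y') := hlim
  have hTy : ‖T y'‖ = N := by
    refine le_antisymm (by simpa [hy'] using T.le_opNorm y') ?_
    have h1 : Tendsto (fun n => ‖T (P (ψ n) (y (ψ n)))‖) atTop (𝓝 ‖T y'‖) := by
      simp only [hPx]
      have := ((T.continuous.tendsto _).comp (hly.add (hle.smul ((D.continuous.tendsto _).comp hly)))).norm
      simpa [Function.comp_def] using this
    have h2 : Tendsto (fun n => (1 + δ (ψ n)) * N) atTop (𝓝 N) := by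
      simpa using (hδt.const_add 1).mul_const N
    exact le_of_tendsto_of_tendsto h2 h1 hkey
  have hortho : ∀ z : E3, ⟪T y', T z⟫ = N ^ 2 * ⟪y', z⟫ := by
    intro z
    have hq : ∀ t : ℝ, 0 ≤ (N ^ 2 * ‖z‖ ^ 2 - ‖T z‖ ^ 2) * (t * t)
        + (2 * (N ^ 2 * ⟪y', z⟫ - ⟪T y', T z⟫)) * t + 0 := by
      intro t
      have h := pow_le_pow_left₀ (norm_nonneg _) (T.le_opNorm (y' + t • z)) 2
      rw [mul_pow, map_add, map_smul, norm_add_sq_real, norm_add_sq_real, real_inner_smul_right,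
        real_inner_smul_right, norm_smul, norm_smul, mul_pow, mul_pow, Real.norm_eq_abs, sq_abs,
        hy', hTy] at h
      nlinarith
    have := discrim_le_zero hq
    rw [discrim] at this
    nlinarith [sq_nonneg (2 * (N ^ 2 * ⟪y', z⟫ - ⟪T y', T z⟫))]
  have hlim1 : Tendsto
      (fun n => N ^ 2 * (2 * (tr + ε (ψ n) * b + ε (ψ n) ^ 2 * c) +
        ε (ψ n) * (tr + ε (ψ n) * b + ε (ψ n) ^ 2 * c) ^ 2)) atTop (𝓝 (N ^ 2 * (2 * tr))) := by
    have h3 : Tendsto (fun n => tr + ε (ψ n) * b + ε (ψ n) ^ 2 * c) atTop (𝓝 tr) := by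
      simpa using ((hle.mul_const b).const_add tr).add ((hle.pow 2).mul_const c)
    simpa using ((h3.const_mul 2).add (hle.mul (h3.pow 2))).const_mul (N ^ 2)
  have hlim2 : Tendsto (fun n => 2 * ⟪T (y (ψ n)), T (D (y (ψ n)))⟫
      + ε (ψ n) * ‖T (D (y (ψ n)))‖ ^ 2) atTop (𝓝 (2 * ⟪T y', T (D y')⟫)) := by
    have hD : Tendsto (fun n => T (D (y (ψ n)))) atTop (𝓝 (T (D y'))) :=
      (T.continuous.tendsto _).comp ((D.continuous.tendsto _).comp hly)
    simpa using ((((T.continuous.tendsto _).comp hly).inner hD (𝕜 := ℝ)).const_mul 2).add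
      (hle.mul (hD.norm.pow 2))
  have hfin : N ^ 2 * (2 * tr) ≤ 2 * ⟪T y', T (D y')⟫ := by
    refine le_of_tendsto_of_tendsto hlim1 hlim2 ?_
    filter_upwards [hkey, hδt.eventually (eventually_gt_nhds (show (-1 : ℝ) < 0 by norm_num))]
      with n hn hn'
    have he := hε0 (ψ n)
    have h := pow_le_pow_left₀ (mul_nonneg (by linarith) hN0.le) hn 2
    rw [hPx, map_add, map_smul, norm_add_sq_real, real_inner_smul_right, norm_smul, mul_pow,
      mul_pow, Real.norm_eq_abs, sq_abs] at h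
    have hTn : ‖T (y (ψ n))‖ ^ 2 ≤ N ^ 2 := pow_le_pow_left₀ (norm_nonneg _) (by
      simpa [hy1] using T.le_opNorm (y (ψ n))) 2
    have hd' : δ (ψ n) = ε (ψ n) * (tr + ε (ψ n) * b + ε (ψ n) ^ 2 * c) := by
      simp only [hδ]; ring
    rw [hd'] at h
    refine le_of_mul_le_mul_left ?_ he
    nlinarith
  rw [hortho] at hfin
  have := hy y' hy' hTy
  nlinarith [pow_pos hN0 2]

/-- The contact decomposition at a maximum. -/
theorem exists_optimal {K : Set E3} (hK : IsCompact K) (hcv : Convex ℝ K) {r : ℝ} (hr : 0 < r)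
    (hrK : closedBall 0 r ⊆ K) :
    ∃ T : E3 →L[ℝ] E3, T ∈ Adm K ∧ LinearMap.det (T : E3 →ₗ[ℝ] E3) ≠ 0 ∧
      ∃ (ι κ : Type) (_ : Fintype ι) (_ : Fintype κ) (c : ι → ℝ) (v : ι → E3) (q : κ → ℝ)
        (y : κ → E3), (∀ a, 0 ≤ c a) ∧ ∑ a, c a = 2 ∧ (∀ a x, T x ∈ K → ⟪v a, x⟫ ≤ 1) ∧
        (∀ b, 0 ≤ q b) ∧ ∑ b, q b = 1 ∧ (∀ b, ‖y b‖ = 1) ∧ (∀ b, ‖T (y b)‖ = ‖T‖) ∧
        ∀ i j, (∑ a, c a * sq2 (v a) i j) + ∑ b, q b * sq2 (y b) i j = one2 i j := by
  obtain ⟨T, hT, hpos, hmax⟩ := exists_max_score hK hr hrK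
  have hdet : LinearMap.det (T : E3 →ₗ[ℝ] E3) ≠ 0 := fun h => by
    simp [score, h] at hpos
  refine ⟨T, hT, hdet, ?_⟩
  set S := sphere (0 : E3) 1 with hS
  set Y : Set E3 := S ∩ {y | ‖T y‖ = ‖T‖} with hY
  set Nc : Set E3 := S ∩ {v | ∀ x, T x ∈ K → ⟪v, x⟫ ≤ 1} with hNc
  have hYc : IsCompact Y := (isCompact_sphere _ _).inter_right (isClosed_eq (by fun_prop) continuous_const)
  have hNcc : IsCompact Nc := (isCompact_sphere _ _).inter_right (by
    simp only [ofPred_forall]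
    exact isClosed_iInter fun x => isClosed_iInter fun _ => isClosed_le (by fun_prop) continuous_const)
  have hsq : Continuous sq2 := by
    unfold sq2
    fun_prop
  set P : Set (Fin 3 → Fin 3 → ℝ) :=
    convexHull ℝ (sq2 '' Y) + (2 : ℝ) • convexHull ℝ (sq2 '' Nc) with hP
  have hPc : IsCompact P := (isCompact_hull (hYc.image hsq)).add
    ((isCompact_hull (hNcc.image hsq)).smul (2 : ℝ))
  have hPv : Convex ℝ P := (convex_convexHull ℝ _).add ((convex_convexHull ℝ _).smul _)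
  suffices hmem : one2 ∈ P by
    obtain ⟨P₁, hP₁, P₂', ⟨P₂, hP₂, rfl⟩, hsum⟩ := Set.mem_add.1 hmem
    obtain ⟨κ, _, q, z, hq, hq1, hz, hzsum⟩ := mem_convexHull_iff_exists_fintype.1 hP₁
    obtain ⟨ι, _, c, w, hc, hc1, hw, hwsum⟩ := mem_convexHull_iff_exists_fintype.1 hP₂
    choose y hy hyz using hz
    choose v hv hvw using hw
    refine ⟨ι, κ, inferInstance, inferInstance, fun a => 2 * c a, v, q, y,
      fun a => mul_nonneg zero_le_two (hc a), by rw [← Finset.mul_sum, hc1, mul_one],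
      fun a => (hv a).2, hq, hq1, fun b => mem_sphere_zero_iff_norm.1 (hy b).1,
      fun b => (hy b).2, fun i j => ?_⟩
    have h := congrFun (congrFun hsum i) j
    simp only [← hwsum, ← hzsum, Pi.add_apply, Pi.smul_apply, Finset.sum_apply, smul_eq_mul,
      ← hvw, ← hyz, Finset.mul_sum] at h
    rw [← h, add_comm]
    congr 1
    exact Finset.sum_congr rfl fun a _ => by ring
  by_contra hmem
  obtain ⟨f, u, s, hfP, hus, hfs⟩ :=
    geometric_hahn_banach_compact_closed hPv hPc (convex_singleton one2) isClosed_singleton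
      (disjoint_singleton_right.2 hmem)
  have hf1 : s < f one2 := hfs one2 rfl
  set e2 : Fin 3 → Fin 3 → Fin 3 → Fin 3 → ℝ := fun i j => Pi.single i (Pi.single j 1) with he2
  set M : ℝ → E3 →L[ℝ] E3 := fun t => (∑ j : Fin 3,
    (innerSL ℝ (ev j)).smulRight (∑ i : Fin 3, f (e2 i j) • ev i)) - t • ContinuousLinearMap.id ℝ E3
    with hM
  have hfval : ∀ z, f z = ∑ i, ∑ j, z i j * f (e2 i j) := fun z => by
    have h : z = ∑ i, ∑ j, z i j • e2 i j := by
      funext a b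
      fin_cases a <;> fin_cases b <;> simp [he2, Fin.sum_univ_three]
    conv_lhs => rw [h]
    simp [map_sum]
  have hM' : ∀ t (x : E3) i, M t x i = (∑ j, x j * f (e2 i j)) - t * x i := fun t x i => by
    rw [hM]
    fin_cases i <;> simp [ev, Fin.sum_univ_three, EuclideanSpace.inner_single_left]
  have hquad : ∀ t (x : E3), ⟪x, M t x⟫ = f (sq2 x) - t * ‖x‖ ^ 2 := fun t x => by
    rw [hfval, ← real_inner_self_eq_norm_sq, inner_three, inner_three]
    simp only [hM', Fin.sum_univ_three, sq2]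
    ring
  have htr : ∀ t, ∑ i, M t (ev i) i = f one2 - 3 * t := fun t => by
    rw [hfval]
    simp only [hM', Fin.sum_univ_three, one2, ev]
    simp
    ring
  rcases Nc.eq_empty_or_nonempty with hN | hN
  · refine no_improvement hK hcv hT hpos hmax (ContinuousLinearMap.id ℝ E3) ?_ ?_
    · intro v hv1 hv2
      exact absurd (show v ∈ Nc from ⟨mem_sphere_zero_iff_norm.2 hv1, hv2⟩) (by rw [hN]; simp)
    · intro y hy1 _
      simp [hy1, ev]
  obtain ⟨v₀, hv₀, hmaxv⟩ := hNcc.exists_isMaxOn hN (f := fun v => f (sq2 v)) (by fun_prop)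
  set t := f (sq2 v₀) + (f one2 - u) / 4 with ht
  have hu : u < f one2 := lt_trans hus hf1
  refine no_improvement hK hcv hT hpos hmax (M t) ?_ ?_
  · intro v hv1 hv2
    have h := hmaxv (show v ∈ Nc from ⟨mem_sphere_zero_iff_norm.2 hv1, hv2⟩)
    simp only [mem_ofPred_eq] at h
    rw [hquad, hv1]
    linarith
  · intro y hy1 hy2
    have h := hfP (sq2 y + (2 : ℝ) • sq2 v₀)
      (Set.add_mem_add (subset_convexHull ℝ _ ⟨y, ⟨mem_sphere_zero_iff_norm.2 hy1, hy2⟩, rfl⟩)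
        (Set.smul_mem_smul_set (subset_convexHull ℝ _ ⟨v₀, hv₀, rfl⟩)))
    rw [map_add, map_smul, smul_eq_mul] at h
    rw [hquad, htr, hy1]
    linarith

end

end Vale.Agent.P243.Symmetric
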